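import Vale.Agent.Lib.P335.helper72.GraphPlug
import Vale.Agent.Lib.P335.helper45.Pairwise
import Vale.Agent.Lib.P335.helper85.JGraph

/-!
P335: the Kannan-Tetali-Vempala conjecture for simple graphs.

For every `n ≥ 4` and every degree vector `d` on `n` vertices, from every start the switch
chain on the realizations of `d` is within total variation distance `1/4` of the uniform
distribution after `n^6` steps. Hence the mixing time is at most `n^6` for every graphical
degree sequence.

The proof bounds the spectral gap of the switch graph. With `P_p = 1 - E[. | G - p]` for
vertex pairs `p` and `H` the sum of the `P_p`: the vertex triples are margin-matrix systems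
with three rows (so the overlapping pairs contribute nonnegatively to `H ^ 2 - H`), the
disjoint pairs contribute nonnegatively by a two-projection analysis of the cross block
together with a Johnson-scheme inequality on the pair fibres, and the switch Laplacian
dominates `H`.
-/

namespace Vale.Agent.Results.P335.KTVAllDegrees

open Vale.Agent.Lib.P335

theorem result (n : ℕ) (hn : 4 ≤ n) (d : Fin n → ℕ) (t : ℕ) (ht : n ^ 6 ≤ t)
    (G : Omega n d) : tvDist n d t G ≤ 1 / 4 :=
  Gr.mixing_of_pairwise_J hn
    (fun _ _ _ _ hxy hxz hxw hyz hyw hzw f => H45G.pairwise hxy hxz hxw hyz hyw hzw f)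
    (fun x y hxy f => H85.J_graph x y hxy f) t ht G

end Vale.Agent.Results.P335.KTVAllDegrees
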