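import Vale.Agent.Lib.P335.helper72.GraphPlug
import Vale.Agent.Lib.P335.helper45.Pairwise
import Vale.Agent.Lib.P335.helper85.JGraph

/-!
P335: the Kannan-Tetali-Vempala conjecture for simple graphs, stated with the mixing time.

`tmix n d` is the mixing time of the problem: the least `t` such that from every start the
`t`-step distribution of the switch chain on the realizations of `d` is within total variation
distance `1/4` of the uniform distribution. The theorem says that this least `t` exists
(the bound `1/4` holds at `t = tmix n d`) and that `tmix n d ≤ n ^ 6`, for every `n ≥ 4` and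
every degree vector `d`.
-/

namespace Vale.Agent.Results.P335.KTVMixingTime

open Vale.Agent.Lib.P335

/-- The mixing time `t_mix(d)` of the switch chain: the least `t` such that from every
starting graph the `t`-step distribution is within total variation distance `1/4` of the
uniform distribution on the realizations of `d`. -/
noncomputable def tmix (n : ℕ) (d : Fin n → ℕ) : ℕ :=
  sInf {t : ℕ | ∀ G : Omega n d, tvDist n d t G ≤ 1 / 4}

theorem result (n : ℕ) (hn : 4 ≤ n) (d : Fin n → ℕ) :
    (∀ G : Omega n d, tvDist n d (tmix n d) G ≤ 1 / 4) ∧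
      (∀ t : ℕ, t < tmix n d → ∃ G : Omega n d, 1 / 4 < tvDist n d t G) ∧
      tmix n d ≤ n ^ 6 := by
  have hmem : n ^ 6 ∈ {t : ℕ | ∀ G : Omega n d, tvDist n d t G ≤ 1 / 4} := fun G =>
    Gr.mixing_of_pairwise_J hn
      (fun _ _ _ _ hxy hxz hxw hyz hyw hzw f => H45G.pairwise hxy hxz hxw hyz hyw hzw f)
      (fun x y hxy f => H85.J_graph x y hxy f) (n ^ 6) le_rfl G
  refine ⟨Nat.sInf_mem ⟨n ^ 6, hmem⟩, fun t ht => ?_, Nat.sInf_le hmem⟩
  by_contra hcon
  have hle : t ∈ {t : ℕ | ∀ G : Omega n d, tvDist n d t G ≤ 1 / 4} := fun G =>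
    not_lt.mp fun hG => hcon ⟨G, hG⟩
  have h1 : tmix n d ≤ t := Nat.sInf_le hle
  exact absurd h1 (not_le.mpr ht)

end Vale.Agent.Results.P335.KTVMixingTime
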