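import Vale.Agent.Lib.P335.LowerBound

/-!
P335: a lower bound of order `n^4` for the mixing time of the switch chain, attained on the
degree vector `(1,1,1,1,0,...,0)`.  Hence any polynomial `p` with `t_mix(d) ≤ p(n)` for all
graphical `d` satisfies `p(n) ≥ C(n,4)/2`.
-/

namespace Vale.Agent.Results.P335.MixLowerN4

open Vale.Agent.Lib.P335

/-- For every `n ≥ 4` the degree vector `(1,1,1,1,0,...,0)` is graphical, and every `t` for which
the `t`-step switch chain is within total variation distance `1/4` of uniform from every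
starting graph satisfies `t ≥ C(n,4)/2`. -/
theorem result : ∀ n : ℕ, 4 ≤ n →
    Nonempty (Omega n (d0 n)) ∧
    ∀ t : ℕ, (∀ G : Omega n (d0 n), tvDist n (d0 n) t G ≤ 1 / 4) →
      (n.choose 4 : ℝ) / 2 ≤ (t : ℝ) := by
  intro n hn
  exact ⟨⟨GA hn⟩, fun t h => mixing_lower_d0 hn t h⟩

end Vale.Agent.Results.P335.MixLowerN4
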