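import Vale.Agent.Lib.P335.helper26.BipMain
import Vale.Agent.Lib.P335.helper32.SplitMixing

/-!
P335: the switch chain is rapidly mixing for every split degree sequence.

If the degree vector `d` on `n ≥ 4` vertices has a realization `G0` in which the vertex set `K`
is a clique and the complement of `K` is an independent set, then from every start the switch
chain on the realizations of `d` is within total variation distance `1/4` of the uniform
distribution after `n^6` steps, so the mixing time is at most `n^6`.

The proof goes through the spectral gap of the switch graph on the 0/1 matrices with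
prescribed row and column sums (`Vale.Agent.Lib.P335.Bip.bip_poincare`), which is at least
two for every pair of margins.
-/

namespace Vale.Agent.Results.P335.SplitRapidMixing

open Vale.Agent.Lib.P335

theorem result (n : ℕ) (hn : 4 ≤ n) (d : Fin n → ℕ) (K : Finset (Fin n))
    (G0 : Omega n d)
    (hclique : ∀ a ∈ K, ∀ b ∈ K, a ≠ b → G0.1.Adj a b)
    (hindep : ∀ a, a ∉ K → ∀ b, b ∉ K → ¬ G0.1.Adj a b)
    (t : ℕ) (ht : n ^ 6 ≤ t) (G : Omega n d) :
    tvDist n d t G ≤ 1 / 4 :=
  Bip.H32.split_mixing_of_bip n hn d K ⟨G0, hclique, hindep⟩ Bip.bip_poincare t ht G

end Vale.Agent.Results.P335.SplitRapidMixing
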